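import Vale.Agent.P126.MathlibUsed

/-!
# P126: definitions used in the statements
-/

namespace Vale.Agent.P126

/-- An origin-symmetric convex body in `ℝⁿ`: a compact convex set with nonempty interior which is
invariant under `x ↦ -x`. -/
structure IsSymmBody {n : ℕ} (K : Set (EuclideanSpace ℝ (Fin n))) : Prop where
  convex : Convex ℝ K
  compact : IsCompact K
  nonempty_interior : (interior K).Nonempty
  symm : ∀ x ∈ K, -x ∈ K

/-- The polar `K° = {y : ⟨x, y⟩ ≤ 1 for all x ∈ K}`. -/
def polarBody {n : ℕ} (K : Set (EuclideanSpace ℝ (Fin n))) : Set (EuclideanSpace ℝ (Fin n)) :=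
  {y | ∀ x ∈ K, inner ℝ x y ≤ 1}

/-- The covering number `N(A, B)`: the least number of translates `x + B` (with arbitrary `x`)
whose union contains `A`. -/
noncomputable def coveringNumber {n : ℕ} (A B : Set (EuclideanSpace ℝ (Fin n))) : ℕ :=
  sInf {m : ℕ | ∃ t : Finset (EuclideanSpace ℝ (Fin n)), t.card = m ∧
    A ⊆ ⋃ x ∈ t, (fun y => x + y) '' B}

end Vale.Agent.P126
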