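import Mathlib.Algebra.GroupWithZero.Action.Pointwise.Finset
import Mathlib.Algebra.Order.Archimedean.Real.Hom
import Mathlib.Algebra.Order.Ring.Star
import Mathlib.Algebra.Order.Star.Real
import Mathlib.Analysis.Complex.ExponentialBounds
import Mathlib.Analysis.InnerProductSpace.Dual
import Mathlib.Analysis.LocallyConvex.Separation
import Mathlib.Analysis.MeanInequalitiesPow
import Mathlib.Data.Int.Star
import Mathlib.Data.Real.Sign
import Mathlib.Tactic

/-! The part of Mathlib that the development of this folder uses. -/
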